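import Crest.Agent.X212.Slc61.Slice
import Crest.Agent.X212.Fred93.Basic
import Crest.Agent.X212.Nk89.Lv
import Crest.Agent.X212.An.Strat

-- ▼ part X212/Ker54/Abs
section

/-! Symmetries of a regular zero: format free lemmas (orbits, slices, affine flows). -/

set_option autoImplicit false
set_option linter.unusedSectionVars false
noncomputable section
open Set Filter Topology Function

namespace Crest.Agent.X212.Ker54
open Slc61 Fred93

variable {G : Type*} [Group G] {C L L' H Y K : Type*} [NormedAddCommGroup C] [NormedSpace ℝ C]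
  [NormedAddCommGroup L] [NormedSpace ℝ L] [NormedAddCommGroup L'] [NormedSpace ℝ L']
  [NormedAddCommGroup H] [NormedSpace ℝ H] [NormedAddCommGroup Y] [NormedSpace ℝ Y]
  [NormedAddCommGroup K] [NormedSpace ℝ K] [MulAction G C] {x₀ : C}

theorem orbit_der (D : SliceData G L H x₀) : HasStrictFDerivAt (fun ξ : L => D.e ξ • x₀) D.d 0 := by
  have h2 : HasStrictFDerivAt (fun ξ : L => ((ξ, x₀) : L × C)) (ContinuousLinearMap.inl ℝ L C) 0 :=
    ((hasStrictFDerivAt_id (0 : L)).prodMk (hasStrictFDerivAt_const x₀ 0)).congr_fderiv (by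
      ext <;> simp)
  have h3 := D.act.comp (0 : L) h2
  exact h3.congr_fderiv (by ext; simp)

/-- the tangent space of an orbit does not depend on the chart -/
theorem range_le [CompleteSpace L'] (D : SliceData G L H x₀) {e : L' → G} {d : L' →L[ℝ] C}
    (he : HasFDerivAt (fun η => e η • x₀) d 0) (h0 : e 0 = 1) (ht : Tame e x₀) {c : ℝ} (c0 : 0 < c)
    (hc : ∀ η, ‖η‖ ≤ c * ‖d η‖) (ξ : L) : D.d ξ ∈ range d := by
  have hcl : IsClosed (range d) :=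
    (d.isUniformEmbedding_of_bound (K := ⟨c, c0.le⟩) hc).isClosedEmbedding.isClosed_range
  refine hcl.closure_subset (Metric.mem_closure_iff.2 fun ε ε0 => ?_)
  set a := ‖D.d ξ‖ + 1 with ha
  have a0 : 0 < a := by positivity
  set δ := min (1 / (2 * c)) (min 1 (ε / (2 * (1 + 2 * c * a)))) with hδ
  have δ0 : 0 < δ := by positivity
  have δ1 : δ ≤ 1 / (2 * c) := min_le_left _ _
  have δ2 : δ ≤ 1 := (min_le_right _ _).trans (min_le_left _ _)
  have δ3 : δ ≤ ε / (2 * (1 + 2 * c * a)) := (min_le_right _ _).trans (min_le_right _ _)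
  obtain ⟨V, hV, h1⟩ := ht _ (he.isLittleO.def δ0)
  have h2 : HasDerivAt (fun t : ℝ => D.e (t • ξ) • x₀) (D.d ξ) 0 := by
    have := HasFDerivAt.comp_hasDerivAt_of_eq (0 : ℝ) (orbit_der D).hasFDerivAt
      ((hasDerivAt_id (0 : ℝ)).smul_const ξ) (by simp)
    rwa [one_smul] at this
  have h3 : ∀ᶠ t in 𝓝 (0 : ℝ), D.e (t • ξ) • x₀ ∈ V :=
    h2.continuousAt.eventually (by simpa [D.e_zero] using hV)
  obtain ⟨t, ⟨h4, h5⟩, t0⟩ := ((((h2.isLittleO.def δ0).and h3).filter_mono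
    (nhdsWithin_le_nhds (s := Ioi 0))).and self_mem_nhdsWithin).exists
  have t0 : 0 < t := t0
  obtain ⟨η, h6, h7⟩ := h1 x₀ (mem_of_mem_nhds hV) _ h5
  simp only [mem_ofPred_eq, h0, one_smul, sub_zero, zero_smul, D.e_zero, h7, Real.norm_eq_abs,
    abs_of_pos t0] at h4 h6
  set g := D.e (t • ξ) • x₀ - x₀
  have e1 : ‖g‖ ≤ t * a := by
    have := norm_le_norm_sub_add g (t • D.d ξ)
    rw [norm_smul, Real.norm_eq_abs, abs_of_pos t0] at this
    nlinarith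
  have e2 : ‖η‖ ≤ 2 * c * (t * a) := by
    have h8 := norm_le_norm_sub_add (d η) g
    rw [norm_sub_rev] at h8
    have h9 : c * δ ≤ 1 / 2 := by rw [le_div_iff₀ (by positivity)] at δ1; linarith
    have := hc η
    nlinarith [mul_le_mul_of_nonneg_left h8 c0.le, mul_le_mul_of_nonneg_left h6 c0.le,
      mul_le_mul_of_nonneg_left e1 c0.le, mul_le_mul_of_nonneg_right h9 (norm_nonneg η)]
  refine ⟨d (t⁻¹ • η), ⟨_, rfl⟩, ?_⟩
  have e3 : D.d ξ - d (t⁻¹ • η) = t⁻¹ • ((g - d η) - (g - t • D.d ξ)) := by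
    rw [map_smul, sub_sub_sub_cancel_left, smul_sub, inv_smul_smul₀ t0.ne']
  rw [dist_eq_norm, e3, norm_smul, Real.norm_eq_abs, abs_of_pos (inv_pos.2 t0),
    inv_mul_lt_iff₀ t0]
  have e4 : δ * (1 + 2 * c * a) ≤ ε / 2 := by
    rw [le_div_iff₀ (by positivity)] at δ3; linarith
  nlinarith [norm_sub_le (g - d η) (g - t • D.d ξ), mul_le_mul_of_nonneg_left e2 δ0.le,
    mul_le_mul_of_nonneg_left e4 t0.le, mul_pos t0 ε0]

/-- a family `S` of symmetries whose derivative is onto the kernel moves all zeros nearby, for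
parameters nearby, into a slice in which they are unique -/
theorem orb_abs {P : Type*} [NormedAddCommGroup P] [NormedSpace ℝ P] [CompleteSpace P]
    [CompleteSpace C] [CompleteSpace Y] [CompleteSpace L] {S : L × C → C} {Λ : L →L[ℝ] C}
    (hS : HasStrictFDerivAt S (Λ.coprod (.id ℝ C)) (0, x₀)) (h0 : S (0, x₀) = x₀) {Ψ : C × P → Y}
    {Ψ' : C × P →L[ℝ] Y} {p₀ : P} (hΨ : HasStrictFDerivAt Ψ Ψ' (x₀, p₀))
    (hs : ∀ f, ∃ v, Ψ' (v, 0) = f) (hz : ∀ a, Ψ' (Λ a, 0) = 0) (π : C →L[ℝ] L)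
    (hπ : ∀ a, π (Λ a) = a) (hk : ∀ v, Ψ' (v, 0) = 0 → v ∈ range Λ) :
    ∃ N ∈ 𝓝 x₀, ∃ N' ∈ 𝓝 p₀, ∃ a : C → L, ∀ w ∈ N, ∀ w' ∈ N, ∀ p ∈ N',
      Ψ (S (a w, w), p) = Ψ (S (a w', w'), p) → S (a w, w) = S (a w', w') := by
  let Φ : C × P →L[ℝ] (Y × L) × P :=
    (Ψ'.prod (π ∘L ContinuousLinearMap.fst ℝ C P)).prod (ContinuousLinearMap.snd ℝ C P)
  have hΦ : ∀ v p, Φ (v, p) = ((Ψ' (v, p), π v), p) := fun _ _ => rfl
  have hb : Bijective Φ := by
    refine ⟨(injective_iff_map_eq_zero _).2 fun ⟨v, p⟩ hv => ?_, fun ⟨⟨f, a⟩, p⟩ => ?_⟩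
    · obtain rfl : p = 0 := congrArg Prod.snd hv
      obtain ⟨a, rfl⟩ := hk v (congrArg (·.1.1) hv)
      rw [← hπ a, show π (Λ a) = 0 from congrArg (·.1.2) hv, map_zero]; rfl
    · obtain ⟨v, e⟩ := hs (f - Ψ' (0, p))
      refine ⟨(v + Λ (a - π v), p), ?_⟩
      rw [hΦ, map_add π, hπ, add_sub_cancel, show (v + Λ (a - π v), p) =
        (v, 0) + (Λ (a - π v), 0) + (0, p) by simp, map_add, map_add, e, hz, add_zero,
        sub_add_cancel]
  let A : (C × P) ≃L[ℝ] (Y × L) × P := ContinuousLinearEquiv.ofBijective Φ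
    (LinearMap.ker_eq_bot.2 hb.1) (LinearMap.range_eq_top.2 hb.2)
  have hA : HasStrictFDerivAt (fun z : C × P => ((Ψ z, π z.1), z.2)) (A : _ →L[ℝ] _) (x₀, p₀) :=
    (hΨ.prodMk (π ∘L ContinuousLinearMap.fst ℝ C P).hasStrictFDerivAt).prodMk hasStrictFDerivAt_snd
  obtain ⟨N1, hN1, N2, hN2, hN⟩ := mem_nhds_prod_iff.1 ((hA.toOpenPartialHomeomorph _
    ).open_source.mem_nhds hA.mem_toOpenPartialHomeomorph_source)
  let Θ : L × C →L[ℝ] L × C := (π ∘L Λ.coprod (.id ℝ C)).prod (ContinuousLinearMap.snd ℝ L C)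
  have hΘ : ∀ a v, Θ (a, v) = (a + π v, v) := fun a v => by simp [Θ, hπ]
  let B : (L × C) ≃L[ℝ] L × C := ContinuousLinearEquiv.ofBijective Θ
    (LinearMap.ker_eq_bot'.2 fun ⟨a, v⟩ e => by
      obtain rfl : v = 0 := congrArg Prod.snd e
      simpa using (hΘ a 0).symm.trans e)
    (LinearMap.range_eq_top.2 fun ⟨a, v⟩ => ⟨(a - π v, v), (hΘ _ _).trans (by simp)⟩)
  have hB : HasStrictFDerivAt (fun z : L × C => (π (S z), z.2)) (B : _ →L[ℝ] _) (0, x₀) :=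
    (π.hasStrictFDerivAt.comp _ hS).prodMk hasStrictFDerivAt_snd
  have h3 := image_mem_map (m := fun z : L × C => (π (S z), z.2))
    (hS.continuousAt.preimage_mem_nhds (by rw [h0]; exact hN1))
  rw [hB.map_nhds_eq_of_equiv, h0] at h3
  have h4 : ∀ w, ∃ a, (π x₀, w) ∈ (fun z : L × C => (π (S z), z.2)) '' (S ⁻¹' N1) →
      S (a, w) ∈ N1 ∧ π (S (a, w)) = π x₀ := fun w => by
    by_cases e : (π x₀, w) ∈ (fun z : L × C => (π (S z), z.2)) '' (S ⁻¹' N1)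
    · obtain ⟨⟨a, v⟩, e1, e2⟩ := e
      obtain rfl : v = w := congrArg Prod.snd e2
      exact ⟨a, fun _ => ⟨e1, congrArg Prod.fst e2⟩⟩
    · exact ⟨0, fun e' => (e e').elim⟩
  choose a ha using h4
  refine ⟨_, (Continuous.prodMk_right (π x₀)).continuousAt.preimage_mem_nhds h3, N2, hN2, a,
    fun w hw w' hw' p hp e => congrArg Prod.fst ((hA.toOpenPartialHomeomorph _).injOn
      (hN (mk_mem_prod (ha w hw).1 hp)) (hN (mk_mem_prod (ha w' hw').1 hp))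
      (Prod.ext (Prod.ext e ((ha w hw).2.trans (ha w' hw').2.symm)) rfl))⟩

/-- **Symmetries bound the index.** -/
theorem lin_le [CompleteSpace L] [CompleteSpace H] [FiniteDimensional ℝ K] {d : L →L[ℝ] C}
    {σ : C →L[ℝ] H} (hb : Bijective (σ.comp d)) {F' : C →L[ℝ] Y} (hs : Surjective F') {n : ℤ}
    (hn : Fr (F'.prod σ) n) {V : K →L[ℝ] C} (h1 : ∀ p, F' (d.coprod V p) = 0)
    (hi : ∀ s ξ, V s = d ξ → s = 0) :
    (Module.finrank ℝ K : ℤ) ≤ n ∧ ((Module.finrank ℝ K : ℤ) = n →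
      (∃ π : C →L[ℝ] L × K, ∀ p, π (d.coprod V p) = p) ∧ ∀ v, F' v = 0 → v ∈ range (d.coprod V)) := by
  have hd : ∀ ξ, F' (d ξ) = 0 := fun ξ => by simpa using h1 (ξ, 0)
  have hV : ∀ s, F' (V s) = 0 := fun s => by simpa using h1 (0, s)
  let A : L ≃L[ℝ] H := ContinuousLinearEquiv.ofBijective (σ.comp d)
    (LinearMap.ker_eq_bot.2 hb.1) (LinearMap.range_eq_top.2 hb.2)
  have hA : ∀ ξ, A.symm (σ (d ξ)) = ξ := A.symm_apply_apply
  have hA' : ∀ w, σ (d (A.symm w)) = w := A.apply_symm_apply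
  let R : C →L[ℝ] C := .id ℝ C - d ∘L (A.symm : H →L[ℝ] L) ∘L σ
  have hR : ∀ v, R v = v - d (A.symm (σ v)) := fun _ => rfl
  let N := (F'.prod σ).ker
  have : FiniteDimensional ℝ N := hn.1.finite_ker
  have hN : ∀ v, F' v = 0 → R v ∈ N := fun v hv => by
    change (F' (R v), σ (R v)) = 0
    rw [hR, map_sub, map_sub, hv, hd, hA', sub_self, sub_self]; rfl
  let j : K →ₗ[ℝ] N := (R ∘L V).toLinearMap.codRestrict N fun s => hN _ (hV s)
  have hj : Injective j := (injective_iff_map_eq_zero _).2 fun s e =>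
    hi s _ (sub_eq_zero.1 (congrArg Subtype.val e))
  have hr := hn.finrank_ker ((surj_prod_iff (ContinuousLinearMap.ext hd) hb.2).2 hs)
  refine ⟨hr ▸ Int.ofNat_le.2 (LinearMap.finrank_le_finrank_of_injective hj), fun e => ?_⟩
  have hj' : Surjective j := (LinearMap.injective_iff_surjective_of_finrank_eq_finrank
    (Int.ofNat_inj.1 (e.trans hr.symm))).1 hj
  refine ⟨?_, fun v hv => ?_⟩
  · obtain ⟨π, hπ⟩ := Submodule.ClosedComplemented.of_finiteDimensional N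
    let J := (LinearEquiv.ofBijective j ⟨hj, hj'⟩).symm.toContinuousLinearEquiv
    let ℓ : C →L[ℝ] K := (J : N →L[ℝ] K) ∘L π ∘L R
    have l1 : ∀ s, ℓ (V s) = s := fun s => (congrArg J (hπ (j s))).trans
      ((LinearEquiv.ofBijective j ⟨hj, hj'⟩).symm_apply_apply s)
    have l2 : ∀ ξ, ℓ (d ξ) = 0 := fun ξ => by
      change J (π (R (d ξ))) = 0
      rw [hR, hA, sub_self, map_zero, map_zero]
    exact ⟨(((A.symm : H →L[ℝ] L) ∘L σ) ∘L (.id ℝ C - V ∘L ℓ)).prod ℓ, fun p => by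
      simp [l1, l2, hA]⟩
  · obtain ⟨s, e⟩ := hj' ⟨_, hN v hv⟩
    have e : V s - d (A.symm (σ (V s))) = v - d (A.symm (σ v)) := congrArg Subtype.val e
    exact ⟨(A.symm (σ v) - A.symm (σ (V s)), s), by
      rw [ContinuousLinearMap.coprod_apply, map_sub, add_comm, add_sub, add_sub_right_comm, e,
        sub_add_cancel]⟩

/-- the group together with a family of symmetries -/
theorem joint_der (D : SliceData G L H x₀) {Θ : K × C → C} {V : K →L[ℝ] C}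
    (hΘ : HasStrictFDerivAt Θ (V.coprod (.id ℝ C)) (0, x₀)) (h0 : Θ (0, x₀) = x₀) :
    HasStrictFDerivAt (fun p : (L × K) × C => D.e p.1.1 • Θ (p.1.2, p.2))
      ((D.d.coprod V).coprod (.id ℝ C)) (0, x₀) := by
  have h1 := (hasStrictFDerivAt_fst (𝕜 := ℝ) (p := ((0, x₀) : (L × K) × C))).fst.prodMk
    (HasStrictFDerivAt.comp (f := fun p : (L × K) × C => (p.1.2, p.2)) (0, x₀) hΘ
      (hasStrictFDerivAt_fst.snd.prodMk hasStrictFDerivAt_snd))
  have h2 : HasStrictFDerivAt (fun q : L × C => D.e q.1 • q.2) (D.d.coprod (.id ℝ C))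
    (0, Θ (0, x₀)) := by rw [h0]; exact D.act
  have h3 := HasStrictFDerivAt.comp (0, x₀) h2 h1
  exact h3.congr_fderiv (by ext <;> simp)

theorem comp_zero {S : L × C → C} {Λ : L →L[ℝ] C}
    (hS : HasStrictFDerivAt S (Λ.coprod (.id ℝ C)) (0, x₀)) (h0 : S (0, x₀) = x₀) {F : C → Y}
    {F' : C →L[ℝ] Y} (hF : HasFDerivAt F F' x₀) (hz : ∀ a, F (S (a, x₀)) = 0) (a : L) :
    F' (Λ a) = 0 := by
  have h1 : HasFDerivAt F F' (S (0, x₀)) := by rw [h0]; exact hF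
  have h2 := h1.comp (0 : L) (HasFDerivAt.comp (f := fun a : L => (a, x₀)) 0 hS.hasFDerivAt
    (hasFDerivAt_prodMk_left (𝕜 := ℝ) (0 : L) x₀))
  rw [show F ∘ S ∘ (fun a => (a, x₀)) = fun _ => 0 from funext hz] at h2
  simpa using congrArg (fun T : L →L[ℝ] Y => T a) (h2.unique (hasFDerivAt_const _ _))

/-- uniqueness for linear equations -/
theorem ode_zero (A : C →L[ℝ] C) {f : ℝ → C} (hf : ∀ t, HasDerivAt f (A (f t)) t) (h0 : f 0 = 0)
    (t : ℝ) : f t = 0 :=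
  congrFun (ODE_solution_unique_univ (v := fun _ => A) (s := fun _ => univ) (t₀ := 0)
    (fun _ => A.lipschitz.lipschitzOnWith) (fun t => ⟨hf t, trivial⟩) (g := fun _ => 0)
    (fun t => ⟨by simpa using hasDerivAt_const t (0 : C), trivial⟩) h0) t

/-- the time one maps of a linear family of affine vector fields -/
theorem exists_flow [CompleteSpace C] [FiniteDimensional ℝ K] (B : K →ₗ[ℝ] C →L[ℝ] C)
    (V : K →ₗ[ℝ] C) (x₀ : C) : ∃ Θ : K × C → C, (∀ w, Θ (0, w) = w) ∧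
      HasStrictFDerivAt Θ (V.toContinuousLinearMap.coprod (.id ℝ C)) (0, x₀) ∧ ∀ s w t,
        HasDerivAt (fun t : ℝ => Θ (t • s, w)) (B s (Θ (t • s, w) - x₀) + V s) t := by
  let _ : NormedAlgebra ℚ (C × ℝ →L[ℝ] C × ℝ) := .restrictScalars ℚ ℝ _
  let A : K →ₗ[ℝ] C × ℝ →L[ℝ] C × ℝ :=
    { toFun := fun s => ((B s).coprod (ContinuousLinearMap.toSpanSingleton ℝ (V s))).prod 0
      map_add' := fun s s' => by ext <;> simp
      map_smul' := fun a s => by ext <;> simp }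
  have hA : ∀ s p, A s p = (B s p.1 + p.2 • V s, 0) := fun _ _ => rfl
  refine ⟨fun p => x₀ + (NormedSpace.exp (A p.1) (p.2 - x₀, 1)).1, by simp, ?_, fun s w t => ?_⟩
  · have h1 : HasStrictFDerivAt NormedSpace.exp (1 : _ →L[ℝ] _)
        (A.toContinuousLinearMap ((0, x₀) : K × C).1) := by
      rw [map_zero]; exact hasStrictFDerivAt_exp_zero
    have h2 := ((HasStrictFDerivAt.comp (f := fun p : K × C => A.toContinuousLinearMap p.1) (0, x₀)
      h1 (A.toContinuousLinearMap.hasStrictFDerivAt.comp (0, x₀)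
      hasStrictFDerivAt_fst)).clm_apply ((hasStrictFDerivAt_snd.sub_const x₀).prodMk
        (hasStrictFDerivAt_const (1 : ℝ) _))).fst.const_add x₀
    exact h2.congr_fderiv (by ext <;> simp [hA])
  · have hU : ∀ t, HasDerivAt (fun t : ℝ => NormedSpace.exp (t • A s) (w - x₀, 1))
        (A s (NormedSpace.exp (t • A s) (w - x₀, 1))) t := fun t => by
      simpa using (hasDerivAt_exp_smul_const' (A s) t).clm_apply
        (hasDerivAt_const t ((w - x₀, 1) : C × ℝ))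
    have h : ∀ t, HasDerivAt (fun t : ℝ => (NormedSpace.exp (t • A s) (w - x₀, 1)).2) 0 t :=
      fun t => (ContinuousLinearMap.snd ℝ C ℝ).hasFDerivAt.comp_hasDerivAt t (hU t)
    have U2 : (NormedSpace.exp (t • A s) (w - x₀, 1)).2 = 1 := by
      rw [is_const_of_deriv_eq_zero (fun s => (h s).differentiableAt) (fun s => (h s).deriv) t 0]
      simp
    simp only [map_smul]
    refine (((ContinuousLinearMap.fst ℝ C ℝ).hasFDerivAt.comp_hasDerivAt t (hU t)).const_add x₀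
      ).congr_deriv ?_
    simp [hA, U2]

end Crest.Agent.X212.Ker54
end
end

-- ▼ part X212/Ker54/Flow
section

/-! The flow of an infinitesimal symmetry in the Banach model. -/

set_option autoImplicit false
set_option linter.unusedSectionVars false
noncomputable section
open scoped Manifold ContDiff Topology InnerProductSpace
open MeasureTheory Set Function Filter NormedSpace

namespace Crest.Agent.X212.Ker54
open An An.Pre Sob92 Prm93 Mod61 Eqv71 Nk89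
open Grp76 (Nice mA mO tA onF hs_iff)
open Wz78 (nab SA opL_inj g_p g_p' g_J g_ρ g_j g_skw)

section alg
variable {𝔸 N : Type} [NormedRing 𝔸] [NormedAlgebra ℝ 𝔸] [CompleteSpace 𝔸]
  [NormedAddCommGroup N] [NormedSpace ℝ N] [CompleteSpace N]

theorem cd_exp : ContDiff ℝ ∞ (exp : 𝔸 → 𝔸) :=
  contDiff_iff_contDiffAt.2 fun a => (exp_analytic a).contDiffAt

theorem ode_alg (X Y W : 𝔸) {D β : ℝ → 𝔸} (hD : ∀ t, HasDerivAt D (Y * exp (t • X) + X * D t) t)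
    (D0 : D 0 = 0) (hβ : ∀ t, HasDerivAt β (X * β t - β t * X - (Y + (W * X - X * W))) t)
    (β0 : β 0 = 0) (t : ℝ) : D t + (W + β t) * exp (t • X) - exp (t • X) * W = 0 := by
  refine ode_zero (ContinuousLinearMap.mul ℝ 𝔸 X)
    (f := fun t => D t + (W + β t) * exp (t • X) - exp (t • X) * W) (fun t => ?_) (by simp [D0, β0]) t
  have h := hasDerivAt_exp_smul_const' X t
  refine (((hD t).add (((hβ t).const_add W).mul h)).sub (h.mul_const W)).congr_deriv ?_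
  simp only [ContinuousLinearMap.mul_apply']
  noncomm_ring

theorem ode_spin {X J : N →L[ℝ] N} (hc : J * X = X * J) (hJ : J * J = -1) (c : ℝ) (a : N)
    {ψ : ℝ → N} (h0 : ψ 0 = 0)
    (hψ : ∀ t, HasDerivAt ψ (X (ψ t) + c • J (ψ t) + (X a + c • J a)) t) :
    a + ψ 1 = Real.cos c • exp X a + Real.sin c • J (exp X a) := by
  have e1 : ∀ v, J (X v) = X (J v) := fun v => congrArg (fun T : N →L[ℝ] N => T v) hc
  have e2 : ∀ v, J (J v) = -v := fun v => congrArg (fun T : N →L[ℝ] N => T v) hJ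
  have := ode_zero (X + c • J) (f := fun t => a + ψ t - (Real.cos (t * c) • exp (t • X) a +
    Real.sin (t * c) • J (exp (t • X) a))) (fun t => ?_) (by simp [h0]) 1
  · simpa [sub_eq_zero] using this
  have h1 := (hasDerivAt_exp_smul_const' X t).clm_apply (hasDerivAt_const t a)
  have h2 := (hasDerivAt_id t).mul_const c
  refine (((hψ t).const_add a).sub ((h2.cos.smul h1).add
    (h2.sin.smul (J.hasFDerivAt.comp_hasDerivAt t h1)))).congr_deriv ?_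
  simp only [map_zero, add_zero, mul_apply_eq_comp, _root_.add_apply,
    _root_.smul_apply, map_sub, map_add, map_smul, e1, e2, id, comp_apply]
  module

omit [CompleteSpace N] in
theorem ode_z {Z : Type} [NormedAddCommGroup Z] [NormedSpace ℂ Z] (c : ℝ) (a : Z) (b : N)
    {z : ℝ → Z × N} (h0 : z 0 = 0) (hz : ∀ t, HasDerivAt z
      (((2 * c * Complex.I : ℂ) • (z t).1, 0) + ((2 * c * Complex.I : ℂ) • a, 0)) t) :
    (a, b) + z 1 = ((Circle.exp c : ℂ) ^ 2 • a, b) := by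
  have h2 : ∀ t, HasDerivAt (fun t => (z t).2) 0 t := fun t =>
    ((ContinuousLinearMap.snd ℝ Z N).hasFDerivAt.comp_hasDerivAt t (hz t)).congr_deriv (add_zero _)
  have h3 := is_const_of_deriv_eq_zero (fun s => (h2 s).differentiableAt)
    (fun s => (h2 s).deriv) 1 0
  have := ode_zero (ContinuousLinearMap.lsmul ℝ ℂ (2 * c * Complex.I : ℂ) : Z →L[ℝ] Z)
    (f := fun t => a + (z t).1 - Complex.exp (t * (2 * c * Complex.I)) • a) (fun t => ?_)
    (by simp [h0]) 1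
  · refine Prod.ext ?_ (by simp [h3, h0])
    rw [Circle.coe_exp, ← Complex.exp_nat_mul]
    refine (sub_eq_zero.1 this).trans ?_
    congr 2
    push_cast; ring
  have h1 := ((Complex.ofRealCLM.hasDerivAt (x := t)).mul_const (2 * c * Complex.I : ℂ)).cexp
  refine ((((ContinuousLinearMap.fst ℝ Z N).hasFDerivAt.comp_hasDerivAt t (hz t)).const_add a).sub
    (h1.smul_const a)).congr_deriv ?_
  simp only [ContinuousLinearMap.lsmul_apply, smul_sub, smul_smul, Complex.ofRealCLM_apply,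
    Complex.ofReal_one, one_mul, mul_comm (Complex.exp _), Prod.fst_add, smul_add, add_comm,
    ContinuousLinearMap.coe_fst']

theorem th_alg {R : Type} [Ring R] {D U A a b p d : R} (h1 : D + (A + a + b) * U - U * (A + a) = 0)
    (h2 : d + (A * p - p * A) = 0) (h3 : a * p = a) (h4 : p * a = a) :
    D * p + U * d + (A + (a + b)) * (U * p) - U * p * (A + a) = 0 := by
  linear_combination (norm := noncomm_ring) h1 * p + U * h2 + U * (h3 - h4)

theorem der_clm {C Z : Type} [NormedAddCommGroup C] [NormedSpace ℝ C] [NormedAddCommGroup Z]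
    [NormedSpace ℝ Z] (L : C →L[ℝ] Z) {f : ℝ → C} {a b : C} {t : ℝ} (hf : HasDerivAt f (a + b) t)
    {d : Z} (e : L a + L b = d) : HasDerivAt (fun t => L (f t)) d t :=
  (L.hasFDerivAt.comp_hasDerivAt t hf).congr_deriv ((map_add L a b).trans e)

theorem der_shift {C : Type} [NormedAddCommGroup C] [NormedSpace ℝ C] {B : C →L[ℝ] C} {v x₀ : C}
    {g : ℝ → C} {t : ℝ} (h : HasDerivAt g (B (g t - x₀) + v) t) (x₁ : C) :
    HasDerivAt (fun t => g t - x₁) (B (g t - x₁) + (B (x₁ - x₀) + v)) t :=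
  (h.sub_const _).congr_deriv (by rw [← add_assoc, ← map_add, sub_add_sub_cancel])

theorem exists_blk {A B Z T : Type} [NormedAddCommGroup A] [NormedSpace ℝ A] [NormedAddCommGroup B]
    [NormedSpace ℝ B] [NormedAddCommGroup Z] [NormedSpace ℝ Z] [NormedAddCommGroup T]
    [NormedSpace ℝ T] (a : A →L[ℝ] A) (b : B →L[ℝ] B) (l : T →L[ℝ] A) (z : Z →L[ℝ] Z) :
    ∃ L : A × B × Z × T →L[ℝ] A × B × Z × T,
      ∀ w, L w = (a w.1 + l w.2.2.2, b w.2.1, z w.2.2.1, 0) :=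
  ⟨(a.coprod (l ∘L .snd ℝ _ _ ∘L .snd ℝ _ _)).prod ((b.prodMap (z.prodMap 0)) ∘L .snd ℝ _ _),
    fun _ => rfl⟩

end alg

variable {E : Type} [NormedAddCommGroup E] [NormedSpace ℝ E] [FiniteDimensional ℝ E]
  [MeasurableSpace E] [BorelSpace E]
  {HM : Type} [TopologicalSpace HM] {I : ModelWithCorners ℝ E HM} [I.Boundaryless]
  {M : Type} [TopologicalSpace M] [ChartedSpace HM M] [IsManifold I ∞ M]
  [MeasurableSpace M] [T2Space M] [BorelSpace M] [SecondCountableTopology M]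
  {ι : Type} [Fintype ι] {lam : Type} [Fintype lam]
  {T : Type} [NormedAddCommGroup T] [NormedSpace ℝ T]

section ex
variable {𝔸 : Type} [NormedRing 𝔸] [NormedAlgebra ℝ 𝔸] [CompleteSpace 𝔸]
  {e : (x : M) → TangentSpace I x} {X : M → 𝔸} {x : M} (hX : SA I X x)
include hX

theorem sa_exp (t : ℝ) : SA I (fun y => exp (t • X y)) x :=
  cd_exp.contMDiff.contMDiffAt.comp x (SA.smul contMDiffAt_const hX)

theorem dv_exp (t : ℝ) : HasDerivAt (fun t : ℝ => dv I e (fun y => exp (t • X y)) x)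
    (dv I e X x * exp (t • X x) + X x * dv I e (fun y => exp (t • X y)) x) t := by
  let _ : NormedAlgebra ℚ 𝔸 := .restrictScalars ℚ ℝ _
  have e1 : ∀ s : ℝ, dv I e (fun y => exp (s • X y)) x =
      s • fderiv ℝ exp (s • X x) (dv I e X x) := fun s => by
    have h1 := ((cd_exp.differentiable (by simp) (s • X x)).hasFDerivAt.comp (X x)
      ((hasFDerivAt_id (X x)).const_smul s))
    exact (dv_comp hX.md h1).trans (by simp)
  have d0 : HasDerivAt (fun s : ℝ => dv I e (fun y => exp (s • X y)) x) (dv I e X x) (t - t) := by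
    have h1 : DifferentiableAt ℝ (fun s : ℝ => fderiv ℝ exp (s • X x) (dv I e X x)) 0 :=
      ((((cd_exp.fderiv_right (m := ∞) (by simp)).differentiable (by simp) _).comp
        0 (by fun_prop)).clm_apply (differentiableAt_const _))
    simp only [e1, sub_self]
    refine ((hasDerivAt_id (0 : ℝ)).smul h1.hasDerivAt).congr_deriv ?_
    simp [(hasFDerivAt_exp_zero (𝕂 := ℝ) (𝔸 := 𝔸)).fderiv]
  have d1 : HasDerivAt (fun s : ℝ => exp (s • X x)) (X x) (t - t) :=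
    (hasDerivAt_exp_smul_const' (X x) _).congr_deriv (by simp)
  refine (((d0.comp_sub_const t t).mul_const _).add ((d1.comp_sub_const t t).mul_const _)
    ).congr_of_eventuallyEq (Eventually.of_forall fun s => ?_)
  refine Eq.trans ?_ (Wz78.dv_mul (sa_exp hX (s - t)) (sa_exp hX t))
  refine congrArg (fun f => dv I e f x) (funext fun y => ?_)
  rw [← exp_add_of_commute ((Commute.refl (X y)).smul_left _ |>.smul_right _), ← add_smul,
    sub_add_cancel]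

end ex

variable {𝔉 : Fam I M ι lam T} (h : 𝔉.OK) {o : Ref 𝔉} {r k j : ℕ} {x : M} {y : Pnt o r}
  {ξ η : M → o.m.A} {c c' : ℝ}

/-- the covariant derivative in the Sobolev frame -/
def n0 (y : Pnt o r) (ξ : M → o.m.A) (a : ι) : M → o.m.A :=
  nab I 𝔉.F0.e (fun a x => adc (o.A y.t a x + opL (y.α x a))) a ξ

/-- the automorphism generated by `ξ` -/
def uX (ξ : M → o.m.A) (x : M) : CL o.m.V o.m.V := exp (opL (ξ x)) * o.m.p x

variable (o) in
/-- `ξ` commutes with the moving part of the base connection up to decaying terms -/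
def Mb (ξ : M → o.m.A) : Prop :=
  ∀ t a, Nice 𝔉.F0.toPre fun x => mA (ξ x) (o.b t x a) - mA (o.b t x a) (ξ x)

theorem mb_B0 [o.B0] (ξ : M → o.m.A) : Mb o ξ := fun t a => by
  simpa [o.b_zero] using Nice.of_hcs (F := 𝔉.F0.toPre) (u := fun _ : M => (0 : o.m.A))
    contMDiff_const HasCompactSupport.zero

/-- the linear part of the infinitesimal action -/
structure Gen (k : ℕ) (ξ : M → o.m.A) (c : ℝ) (B : o.C r k →L[ℝ] o.C r k) : Prop where
  α : ∀ w x a, 𝔉.F0.val _ _ (B w).1 x a = mA (ξ x) (𝔉.F0.val _ _ w.1 x a + o.b w.2.2.2 x a) -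
    mA (𝔉.F0.val _ _ w.1 x a + o.b w.2.2.2 x a) (ξ x)
  φ : ∀ w x, 𝔉.F0.val _ _ (B w).2.1 x =
    opL (ξ x) (𝔉.F0.val _ _ w.2.1 x) + c • o.m.J (𝔉.F0.val _ _ w.2.1 x)
  z : ∀ w, (B w).2.2 = ((2 * c * Complex.I : ℂ) • w.2.2.1, 0)

/-- `IsInf` in the Sobolev frame -/
structure In0 (k : ℕ) (y : Pnt o r) (ξ : M → o.m.A) (c : ℝ) (v : o.C r k) : Prop where
  α : ∀ x a, 𝔉.F0.val _ _ v.1 x a = -n0 y ξ a x
  φ : ∀ x, 𝔉.F0.val _ _ v.2.1 x = opL (ξ x) (o.Φ0 x + y.φ x) + c • o.m.J (o.Φ0 x + y.φ x)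
  z : v.2.2 = ((2 * c * Complex.I : ℂ) • y.z, 0)

/-- `w` is the image of `y` under `(exp ξ, exp (i c))` -/
structure Img (k : ℕ) (y : Pnt o r) (ξ : M → o.m.A) (c : ℝ) (w : o.C r k) : Prop where
  α : ∀ x a, th o o y.t y.α (𝔉.F0.val _ _ w.1) (uX ξ) a x = 0
  φ : ∀ x, o.Φ0 x + 𝔉.F0.val _ _ w.2.1 x = cs o.m.J (Circle.exp c) (uX ξ x (o.Φ0 x + y.φ x))
  z : w.2.2 = ((Circle.exp c : ℂ) ^ 2 • y.z, y.t)

theorem opL_n0 (hξ : MDifferentiableAt I 𝓘(ℝ, o.m.A) ξ x) (a : ι) : opL (n0 y ξ a x) =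
    dv I (𝔉.F0.e a) (fun z => opL (ξ z)) x + ((o.A y.t a x + opL (y.α x a)) * opL (ξ x) -
      opL (ξ x) * (o.A y.t a x + opL (y.α x a))) := by
  rw [n0, nab, map_add, Wz78.opL_adc, dv_clm opL hξ]

theorem n0_add (hξ : MDifferentiableAt I 𝓘(ℝ, o.m.A) ξ x) (hη : MDifferentiableAt I 𝓘(ℝ, o.m.A) η x)
    (a : ι) : n0 y (ξ + η) a x = n0 y ξ a x + n0 y η a x := by
  simp only [n0, nab, dv_add hξ hη, Pi.add_apply, map_add]; abel

theorem n0_smul (hξ : MDifferentiableAt I 𝓘(ℝ, o.m.A) ξ x) (s : ℝ) (a : ι) :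
    n0 y (s • ξ) a x = s • n0 y ξ a x := by
  simp only [n0, nab, dv_const_smul s hξ, Pi.smul_apply, map_smul, smul_add]

theorem In0.add {v w : o.C r k} (a : In0 k y ξ c v) (b : In0 k y η c' w)
    (hξ : MDifferentiable I 𝓘(ℝ, o.m.A) ξ) (hη : MDifferentiable I 𝓘(ℝ, o.m.A) η) :
    In0 k y (ξ + η) (c + c') (v + w) where
  α x i := by
    rw [Prod.fst_add, val_add, Pi.add_apply, PiLp.add_apply, a.α, b.α, n0_add (hξ x) (hη x), neg_add]
  φ x := by
    rw [Prod.snd_add, Prod.fst_add, val_add, Pi.add_apply, a.φ, b.φ, Pi.add_apply, map_add opL,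
      _root_.add_apply, add_smul]
    abel
  z := by
    rw [Prod.snd_add, Prod.snd_add, a.z, b.z, Prod.mk_add_mk, add_zero, ← add_smul]
    congr 2
    push_cast; ring

theorem In0.smul {v : o.C r k} (a : In0 k y ξ c v) (hξ : MDifferentiable I 𝓘(ℝ, o.m.A) ξ) (s : ℝ) :
    In0 k y (s • ξ) (s • c) (s • v) where
  α x i := by
    rw [Prod.smul_fst, val_smul, Pi.smul_apply, PiLp.smul_apply, a.α, n0_smul (hξ x), smul_neg]
  φ x := by
    rw [Prod.smul_snd, Prod.smul_fst, val_smul, Pi.smul_apply, a.φ, Pi.smul_apply, map_smul opL,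
      _root_.smul_apply, smul_add, smul_assoc]
  z := by
    rw [Prod.smul_snd, Prod.smul_snd, a.z, Prod.smul_mk, smul_zero, ← smul_assoc]
    congr 2
    simp only [smul_eq_mul, Complex.real_smul]
    push_cast; ring

theorem Gen.add {B B' : o.C r k →L[ℝ] o.C r k} (a : Gen k ξ c B) (b : Gen k η c' B') :
    Gen k (ξ + η) (c + c') (B + B') where
  α w x i := by
    rw [_root_.add_apply, Prod.fst_add, val_add, Pi.add_apply, PiLp.add_apply, a.α, b.α]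
    simp only [Pi.add_apply, map_add, _root_.add_apply]; abel
  φ w x := by
    rw [_root_.add_apply, Prod.snd_add, Prod.fst_add, val_add, Pi.add_apply, a.φ, b.φ,
      Pi.add_apply, map_add opL, _root_.add_apply, add_smul]
    abel
  z w := by
    rw [_root_.add_apply, Prod.snd_add, Prod.snd_add, a.z, b.z, Prod.mk_add_mk,
      add_zero, ← add_smul]
    congr 2
    push_cast; ring

theorem Gen.smul {B : o.C r k →L[ℝ] o.C r k} (a : Gen k ξ c B) (s : ℝ) :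
    Gen k (s • ξ) (s • c) (s • B) where
  α w x i := by
    rw [_root_.smul_apply, Prod.smul_fst, val_smul, Pi.smul_apply, PiLp.smul_apply, a.α]
    simp only [Pi.smul_apply, map_smul, _root_.smul_apply, smul_sub]
  φ w x := by
    rw [_root_.smul_apply, Prod.smul_snd, Prod.smul_fst, val_smul, Pi.smul_apply, a.φ,
      Pi.smul_apply, map_smul opL, _root_.smul_apply, smul_add, smul_assoc]
  z w := by
    rw [_root_.smul_apply, Prod.smul_snd, Prod.smul_snd, a.z, Prod.smul_mk, smul_zero,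
      ← smul_assoc]
    congr 2
    simp only [smul_eq_mul, Complex.real_smul]
    push_cast; ring

theorem mx_uX (hξ : ξ x ∈ o.m.gS x) : MX o o x (uX ξ x) := by
  let _ : NormedAlgebra ℚ (En (Fin o.m.N)) := .restrictScalars ℚ ℝ _
  have cm : ∀ {S : En (Fin o.m.N)}, S * opL (ξ x) = opL (ξ x) * S →
      S * exp (opL (ξ x)) = exp (opL (ξ x)) * S := fun e => (Commute.exp_right e).eq
  obtain ⟨u1, u2⟩ := Unitary.mem_iff.1 (exp_mem_unitary_of_mem_skewAdjoint (x := opL (ξ x))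
    (skewAdjoint.mem_iff.2 (Wz78.Skw.trn (g_skw hξ))))
  change trn _ * _ = 1 at u1
  change _ * trn _ = 1 at u2
  have cp := cm ((g_p hξ).trans (g_p' o.ok hξ).symm)
  have pp := o.ok.pidem x
  have tp := Wz78.Sym.trn (o.ok.psym x)
  refine mx_of ?_ ?_ ?_ (fun b => ?_) fun s => ?_ <;>
    simp only [uX, ← ContinuousLinearMap.mul_def, Wz78.trn_mul, tp]
  · rw [mul_assoc, ← mul_assoc (trn _), u1, one_mul, pp]
  · rw [mul_assoc, ← mul_assoc (o.m.p x), pp, ← mul_assoc, ← cp, mul_assoc, u2, mul_one]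
  · rw [mul_assoc, ← o.ok.Jp, ← mul_assoc, ← cm (g_J hξ), mul_assoc]
  · rw [← mul_assoc, cm (g_ρ hξ b), mul_assoc, mul_assoc, (o.ok.cl x).pl, (o.ok.cl x).pr]
  · have h1 := o.ok.pj x s
    have h2 := congrArg trn h1
    rw [Wz78.trn_mul, tp, Wz78.Sym.trn (o.ok.jsym x s)] at h2
    rw [← mul_assoc, cm (g_j hξ s), mul_assoc, mul_assoc, h1, h2]

theorem sm_uX (hξ : Sm I ξ) : Sm I (uX ξ) := fun x =>
  SA.mul (cd_exp.contMDiff.contMDiffAt.comp x (opL.contMDiff.contMDiffAt.comp x (hξ x))) (o.ok.sp x)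

include h

theorem In0.unique (hk : 3 ≤ k) {v w : o.C r k} (a : In0 k y ξ c v) (b : In0 k y ξ c w) : v = w :=
  C_ext h hk (funext fun x => PiLp.ext fun i => (a.α x i).trans (b.α x i).symm)
    (funext fun x => (a.φ x).trans (b.φ x).symm) (a.z.trans b.z.symm)

theorem Gen.unique (hk : 3 ≤ k) {B B' : o.C r k →L[ℝ] o.C r k} (a : Gen k ξ c B)
    (b : Gen k ξ c B') : B = B' := ContinuousLinearMap.ext fun w =>
  C_ext h hk (funext fun x => PiLp.ext fun i => (a.α w x i).trans (b.α w x i).symm)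
    (funext fun x => (a.φ w x).trans (b.φ w x).symm) ((a.z w).trans (b.z w).symm)

/-- change of frame -/
theorem nab_W (hξ : ξ x ∈ o.m.gS x) (a : ι) :
    nab I (𝔉.G y.t).F.e (o.m.adW (o.W y.t y.α)) a ξ x = ∑ b, 𝔉.S y.t x a b • n0 y ξ b x := by
  have h1 : ∀ b k, o.m.ρ b x * o.m.ρ k x * opL (ξ x) = opL (ξ x) * (o.m.ρ b x * o.m.ρ k x) :=
    fun b k => by rw [mul_assoc, g_ρ hξ, ← mul_assoc, g_ρ hξ, mul_assoc]
  have h2 : o.m.J * o.m.p x * opL (ξ x) = opL (ξ x) * (o.m.J * o.m.p x) := by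
    rw [mul_assoc, g_p hξ, o.ok.Jp, ← mul_assoc, g_p' o.ok hξ, g_J hξ]
  have h3 := congrFun ((h.mix _ y.ht).D a ξ) x
  refine opL_inj ?_
  simp only [D_def] at h3
  simp only [nab, n0, h3, Md.adW, map_add, map_sum, map_smul, Wz78.opL_adc, W_apply, Fam.W0,
    add_mul, mul_add, Finset.sum_mul, Finset.mul_sum, smul_mul_assoc, mul_smul_comm, h1, h2,
    smul_add, smul_sub, Finset.sum_add_distrib, Finset.sum_sub_distrib]
  abel

theorem sum_n0 (y : Pnt o r) (ξ : M → o.m.A) (a : ι) :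
    ∑ b, 𝔉.B.P a b x • n0 y ξ b x = n0 y ξ a x := by
  have h1 : ∑ b, 𝔉.B.P a b x • dv I (𝔉.F0.e b) ξ x = dv I (𝔉.F0.e a) ξ x :=
    h.P0 ▸ (Wz78.frm 𝔉.F0).projD a ξ x
  simp only [n0, nab, smul_add, Finset.sum_add_distrib, h1, ← Wz78.adcL_apply]
  rw [← idx_sum (y.pα h x) a, ← (o.connA h.B y.t).cc.proj a x]
  simp only [map_add, map_sum, map_smul, _root_.add_apply,
    _root_.sum_apply, _root_.smul_apply, smul_add, Finset.sum_add_distrib]

theorem n0_eq (hξ : ξ x ∈ o.m.gS x) (a : ι) : n0 y ξ a x =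
    ∑ b, 𝔉.Si y.t x a b • nab I (𝔉.G y.t).F.e (o.m.adW (o.W y.t y.α)) b ξ x := by
  simp only [nab_W h hξ, Finset.smul_sum, smul_smul]
  rw [Finset.sum_comm]
  simp only [← Finset.sum_smul, h.SiS _ y.ht, sum_n0 h]

theorem In0.isInf {v : o.C r k} (a : In0 k y ξ c v) (hξ : ∀ x, ξ x ∈ o.m.gS x) : IsInf k y ξ c v :=
  ⟨fun x i => by simp only [a.α, nab_W h (hξ x), smul_neg, Finset.sum_neg_distrib], a.φ, a.z⟩

theorem br_mem {a b : o.m.A} (ha : o.Pg x a = a) (hb : o.Pg x b = b) :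
    o.Pg x (mA a b - mA b a) = mA a b - mA b a := by
  have H := (Grp76.hyp o h le_rfl).toOK
  obtain ⟨a1, a2⟩ := (H.g_iff x a).1 ha
  obtain ⟨b1, b2⟩ := (H.g_iff x b).1 hb
  exact (H.g_iff x _).2 ⟨by rw [map_sub, H.mul x _ _ a1 b1, H.mul x _ _ b1 a1],
    by simp [Grp76.tA_mA, a2, b2]⟩

theorem n0_mem (hd : MDifferentiable I 𝓘(ℝ, o.m.A) ξ) (hξ : ∀ x, o.Pg x (ξ x) = ξ x) (a : ι)
    (x : M) : o.Pg x (n0 y ξ a x) = n0 y ξ a x := by
  have H := Grp76.hyp o h le_rfl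
  have h1 := fun x => (H.g_iff x _).1 (hξ x)
  have h2 : n0 y ξ a x = nab I 𝔉.F0.e (Grp76.qb o).ad a ξ x +
      (mA ((y.α x + o.b y.t x) a) (ξ x) - mA (ξ x) ((y.α x + o.b y.t x) a)) := by
    rw [← Grp76.adc_opL]
    simp only [n0, nab, Grp76.QB.ad, ← Wz78.adcL_apply, map_add, _root_.add_apply, Ref.A, Md.addC,
      PiLp.add_apply]
    abel
  rw [h2, map_add, br_mem h (((H.c_iff x _).1 (add_b (y.pα h x) _)).1 a) (hξ x)]
  refine congrArg (· + _) ((H.g_iff x _).2 ⟨H.par ξ hd (fun x => (h1 x).1) a x, ?_⟩)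
  rw [← H.nab_t (hd x), funext fun x => (h1 x).2]
  simp only [nab, map_neg, neg_add]
  exact congrArg (· + _) (dv_neg ξ x)

theorem spin_mem (hξ : o.Pg x (ξ x) = ξ x) {v : o.m.V} (hv : o.Pp x v = v) :
    o.Pp x (opL (ξ x) v + c • o.m.J v) = opL (ξ x) v + c • o.m.J v := by
  have h1 := ((Grp76.Pg_iff h x _).1 hξ).1
  rw [map_add, map_smul, Grp76.Pp_comm ((g_p' o.ok h1).trans (g_p h1).symm)
    (fun a => (g_ρ h1 a).symm) hv, Grp76.Pp_comm (o.ok.Jp x) (fun a => o.ok.Jρ a x) hv]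

theorem maps_br (hξ : ∀ x, o.Pg x (ξ x) = ξ x) :
    Maps o.P1 o.P1 fun x => onF ι (mA - mO) (ξ x) := fun x η e => by
  have H := (Grp76.hyp o h le_rfl).toOK
  obtain ⟨e1, e2⟩ := (H.c_iff x η).1 e
  refine (H.c_iff x _).2 ⟨fun a => ?_, fun a => ?_⟩
  · rw [Grp76.onF_apply]; exact br_mem h (hξ x) (e1 a)
  · simp only [Grp76.onF_apply, ← map_smul, ← map_sum, e2]

theorem Mb.ex [CompleteSpace T] (mb : Mb o ξ) (hξ : ∀ x, o.Pg x (ξ x) = ξ x) (hk : 4 ≤ k) :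
    ∃ L : T →L[ℝ] 𝔉.F0.H k o.P1,
      ∀ t, 𝔉.F0.val k _ (L t) = fun x => onF ι (mA - mO) (ξ x) (o.b t x) := by
  have mv : ∀ t, (fun x => onF ι (mA - mO) (ξ x) (o.b t x)) ∈ Hs 𝔉.F0.toPre o.P1 := fun t =>
    (hs_iff h).2 ⟨Nice.fm fun a => by simp only [Grp76.onF_apply]; exact mb t a,
      fun x => maps_br h hξ x _ (b_P1 t x)⟩
  let L : T →ₗ[ℝ] 𝔉.F0.H k o.P1 := ⟨⟨fun t => ofV _ k _ fun x => onF ι (mA - mO) (ξ x) (o.b t x),
    fun s t => ofV_eq h.sup hk (by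
      rw [val_add, val_ofV (mv s) hk, val_ofV (mv t) hk]
      exact funext fun x => by rw [map_add, Pi.add_apply, Pi.add_apply, map_add])⟩,
    fun c t => ofV_eq h.sup hk (by
      rw [val_smul, val_ofV (mv t) hk]
      exact funext fun x => by rw [map_smul, Pi.smul_apply, Pi.smul_apply, map_smul]; rfl)⟩
  have hL : ∀ t, 𝔉.F0.val k _ (L t) = _ := fun t => val_ofV (mv t) hk
  refine ⟨⟨L, L.continuous_of_seq_closed_graph fun u t g hu hg => ?_⟩, hL⟩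
  refine (ofV_eq h.sup hk (funext fun x => ?_)).symm
  have h1 : Continuous fun t => onF ι (mA - mO) (ξ x) (o.b t x) :=
    (ContinuousLinearMap.continuous _).comp (continuousOn_univ.1 (o.sb.ev x).continuousOn)
  refine tendsto_nhds_unique (((continuous_val_apply x).tendsto g).comp hg) ?_
  simpa only [Function.comp_def, hL] using (h1.tendsto t).comp hu

theorem exists_gen [CompleteSpace T] (hk : 3 ≤ k) (cb : 𝔉.F0.Cb ξ) (hξ : ∀ x, o.Pg x (ξ x) = ξ x)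
    (mb : Mb o ξ) (c : ℝ) : ∃ B : o.C r k →L[ℝ] o.C r k, Gen k ξ c B := by
  have h4 : 4 ≤ k + 1 := by omega
  obtain ⟨L, hL⟩ := mb.ex h hξ h4
  obtain ⟨B1, h1⟩ : ∃ B : 𝔉.F0.H (k + 1) o.P1 →L[ℝ] 𝔉.F0.H (k + 1) o.P1, ∀ w x,
      𝔉.F0.val _ _ (B w) x = onF ι (mA - mO) (ξ x) (𝔉.F0.val _ _ w x) :=
    ⟨_, val_mulH h.sup h4 (Cb_clm (onF ι (mA - mO)) cb) (maps_br h hξ)⟩
  obtain ⟨B2, h2⟩ : ∃ B : 𝔉.F0.H (k + 1) o.Pp →L[ℝ] 𝔉.F0.H (k + 1) o.Pp, ∀ w x,
      𝔉.F0.val _ _ (B w) x = (opL (ξ x) + c • o.m.J) (𝔉.F0.val _ _ w x) :=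
    ⟨_, val_mulH h.sup h4 (Cb_add (Cb_clm opL cb) (Cb_const (c • o.m.J)))
      fun x v e => spin_mem h (hξ x) e⟩
  obtain ⟨B, hB⟩ := exists_blk B1 B2 L (ContinuousLinearMap.lsmul ℝ ℂ (2 * c * Complex.I : ℂ) :
    EuclideanSpace ℂ (Fin r) →L[ℝ] EuclideanSpace ℂ (Fin r))
  refine ⟨B, fun w x a => ?_, fun w x => by rw [hB, h2]; rfl, fun w => by rw [hB]; rfl⟩
  rw [hB, val_add, Pi.add_apply, h1, hL, ← map_add, Grp76.onF_apply]
  rfl

theorem exists_in0 (hk : 3 ≤ k) (a : Inf y ξ c) : ∃ v : o.C r k, In0 k y ξ c v := by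
  have H := (Grp76.hyp o h le_rfl).toOK
  have h4 : 4 ≤ k + 1 := by omega
  have hd := (Cb.sm a.cb).mdifferentiable (by simp)
  obtain ⟨v1, e1⟩ := (hs_iff h (p := o.P1) (u := fun x => WithLp.toLp 2 fun i => -n0 y ξ i x)).2
    ⟨Nice.fm fun i => by
      simp only [n0_eq h ((Grp76.Pg_iff h _ _).1 (a.mem _)).1]
      exact (Nice.sum _ fun b => (a.A b).bil (ContinuousLinearMap.lsmul ℝ ℝ)
        ((h.sSi i b).cb _ y.ht)).clm (-.id ℝ _), fun x => (H.c_iff x _).2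
      ⟨fun i => by simp only [map_neg]; exact congrArg _ (n0_mem h hd a.mem i x), fun i => by
        simp only [smul_neg, Finset.sum_neg_distrib, h.P0, sum_n0 h]⟩⟩ _ h4
  obtain ⟨v2, e2⟩ := (hs_iff h (p := o.Pp)).2
    ⟨a.Φ, fun x => spin_mem h (a.mem x) (y.pΦ h x)⟩ _ h4
  exact ⟨(v1, v2, _, 0), fun x i => by rw [e1], fun x => by rw [e2], rfl⟩

section ode
variable (hk : 3 ≤ k) (sm : Sm I ξ) (hξ : ∀ x, ξ x ∈ o.m.gS x)
    {B : o.C r k →L[ℝ] o.C r k} (gB : Gen k ξ c B) {v : o.C r k} (gv : In0 k y ξ c v)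
    {f : ℝ → o.C r k} (f0 : f 0 = 0) (hf : ∀ t, HasDerivAt f (B (f t) + v) t)
include hk gB gv f0 hf

omit hk h in
theorem ode_t (t : ℝ) : (f t).2.2.2 = 0 := by
  obtain ⟨L, hL⟩ : ∃ L : o.C r k →L[ℝ] T, ∀ w, L w = w.2.2.2 :=
    ⟨.snd ℝ _ _ ∘L .snd ℝ _ _ ∘L .snd ℝ _ _, fun _ => rfl⟩
  have h1 : ∀ t, HasDerivAt (fun t => L (f t)) 0 t := fun t =>
    der_clm L (hf t) (by rw [hL, hL, gB.z, gv.z, add_zero])
  rw [← hL, is_const_of_deriv_eq_zero (fun s => (h1 s).differentiableAt) (fun s => (h1 s).deriv)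
    t 0, f0, map_zero]

omit hk h in
include sm in
theorem ode_β (x : M) (a : ι) : dv I (𝔉.F0.e a) (fun z => exp ((1 : ℝ) • opL (ξ z))) x +
    (o.A y.t a x + opL (y.α x a) + opL (𝔉.F0.val _ _ (f 1).1 x a)) * exp ((1 : ℝ) • opL (ξ x)) -
    exp ((1 : ℝ) • opL (ξ x)) * (o.A y.t a x + opL (y.α x a)) = 0 := by
  have s1 : SA I (fun z => opL (ξ z)) x := opL.contMDiff.contMDiffAt.comp x (sm x)
  obtain ⟨L, hL⟩ : ∃ L : o.C r k →L[ℝ] En (Fin o.m.N), ∀ w, L w = opL (𝔉.F0.val _ _ w.1 x a) :=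
    ⟨opL ∘L Grp76.pj _ a ∘L 𝔉.F0.ev _ _ x ∘L ContinuousLinearMap.fst ℝ _ _, fun _ => rfl⟩
  have e : ∀ t, L (B (f t)) + L v = opL (ξ x) * L (f t) - L (f t) * opL (ξ x) -
      (dv I (𝔉.F0.e a) (fun z => opL (ξ z)) x + ((o.A y.t a x + opL (y.α x a)) * opL (ξ x) -
        opL (ξ x) * (o.A y.t a x + opL (y.α x a)))) := fun t => by
    rw [hL, hL, hL, gB.α, gv.α, ode_t gB gv f0 hf, map_zero, Pi.zero_apply, PiLp.zero_apply,
      add_zero, map_neg, opL_n0 (Wz78.SA.md (sm x)), map_sub, Grp76.opL_mA,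
      Grp76.opL_mA, ← sub_eq_add_neg]
  rw [← hL]
  exact ode_alg _ _ _ (dv_exp s1) (by simp) (fun t => der_clm L (hf t) (e _))
    (by rw [f0, map_zero]) 1

include sm in
theorem ode_α (x : M) (a : ι) : th o o y.t y.α (𝔉.F0.val _ _ (y.pt k + f 1).1) (uX ξ) a x = 0 := by
  have h1 := ode_β sm gB gv f0 hf x a
  have h2 := (o.connA h.B y.t).cc.par a x
  have h3 := Wz78.dv_mul (e := 𝔉.F0.e a)
    (sa_exp (opL.contMDiff.contMDiffAt.comp x (sm x) : SA I (fun z => opL (ξ z)) x) 1) (o.ok.sp x)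
  have h4 := idx_mem (y.pα h x) a
  simp only [one_smul, comp_apply] at h1 h3
  rw [h.e0] at h2
  rw [th, D_def, Prod.fst_add, val_add, y.val_α hk, Pi.add_apply, PiLp.add_apply, map_add]
  unfold uX
  rw [h3]
  exact th_alg h1 h2 (g_p' o.ok h4) (g_p h4)

include hξ in
theorem ode_φ (x : M) : o.Φ0 x + 𝔉.F0.val _ _ (y.pt k + f 1).2.1 x =
    cs o.m.J (Circle.exp c) (uX ξ x (o.Φ0 x + y.φ x)) := by
  obtain ⟨L, hL⟩ : ∃ L : o.C r k →L[ℝ] o.m.V, ∀ w, L w = 𝔉.F0.val _ _ w.2.1 x :=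
    ⟨𝔉.F0.ev _ _ x ∘L ContinuousLinearMap.fst ℝ _ _ ∘L ContinuousLinearMap.snd ℝ _ _, fun _ => rfl⟩
  have h1 := ode_spin (g_J (hξ x)) o.ok.Jsq c (o.Φ0 x + y.φ x) (ψ := fun t => L (f t))
    (by rw [f0, map_zero]) fun t => der_clm L (hf t) (by rw [hL, hL, hL, gB.φ, gv.φ])
  rw [Prod.snd_add, Prod.fst_add, val_add, y.val_φ hk, Pi.add_apply, ← add_assoc, ← hL, h1, uX,
    mul_apply_eq_comp, show o.m.p x (o.Φ0 x + y.φ x) = o.Φ0 x + y.φ x from
      Grp76.p_Pp h (y.pΦ h x), cs, Circle.coe_exp, Complex.exp_ofReal_mul_I_re,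
    Complex.exp_ofReal_mul_I_im]

omit hk h in
theorem ode_zt : (y.pt k + f 1).2.2 = ((Circle.exp c : ℂ) ^ 2 • y.z, y.t) := by
  obtain ⟨L, hL⟩ : ∃ L : o.C r k →L[ℝ] EuclideanSpace ℂ (Fin r) × T, ∀ w, L w = w.2.2 :=
    ⟨ContinuousLinearMap.snd ℝ _ _ ∘L ContinuousLinearMap.snd ℝ _ _, fun _ => rfl⟩
  rw [Prod.snd_add, Prod.snd_add, ← hL (f 1)]
  exact ode_z c y.z y.t (z := fun t => L (f t)) (by rw [f0, map_zero])
    fun t => der_clm L (hf t) (by rw [hL, hL, hL, gB.z, gv.z])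

include sm hξ in
/-- the time one map of the flow is the action of the exponential -/
theorem img_of_ode : Img k y ξ c (y.pt k + f 1) :=
  ⟨ode_α h hk sm gB gv f0 hf, ode_φ h hk hξ gB gv f0 hf, ode_zt gB gv f0 hf⟩

end ode

theorem Img.unique (hk : 3 ≤ k) (hξ : ∀ x, ξ x ∈ o.m.gS x) {v w : o.C r k} (a : Img k y ξ c v)
    (b : Img k y ξ c w) : v = w := by
  refine C_ext h hk (funext fun x => PiLp.ext fun i => ?_)
    (funext fun x => add_left_cancel ((a.φ x).trans (b.φ x).symm)) (a.z.trans b.z.symm)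
  refine (mx_uX (hξ x)).cancel (idx_mem (val_proj h.sup (by omega) v.1 x) i)
    (idx_mem (val_proj h.sup (by omega) w.1 x) i) ?_
  have := (a.α x i).trans (b.α x i).symm
  rwa [th, th, sub_left_inj, add_right_inj, ContinuousLinearMap.add_comp,
    ContinuousLinearMap.add_comp, add_right_inj] at this

theorem Img.iC (hk : 3 ≤ k) (hj : k ≤ j) {w : o.C r j} (a : Img j y ξ c w) :
    Img k y ξ c (o.iC r k j w) := by
  obtain ⟨e1, e2, e3⟩ := snd_snd (iC_apply (k := k) w)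
  exact ⟨fun x i => by rw [e1, val_incl h.sup (by omega) (by omega)]; exact a.α x i,
    fun x => by rw [e2, val_incl h.sup (by omega) (by omega)]; exact a.φ x, e3.trans a.z⟩

omit h in
/-- the infinitesimal action at another point -/
theorem In0.move (hk : 3 ≤ k) {B : o.C r k →L[ℝ] o.C r k} (gB : Gen k ξ c B) {v : o.C r k}
    (gv : In0 k y ξ c v) (y' : Pnt o r) : In0 k y' ξ c (B (y'.pt k - y.pt k) + v) where
  α x a := by
    rw [Prod.fst_add, val_add, Pi.add_apply, PiLp.add_apply, gB.α, gv.α, Prod.fst_sub, val_sub,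
      y.val_α hk, y'.val_α hk, show (y'.pt k - y.pt k).2.2.2 = y'.t - y.t from rfl]
    simp only [n0, nab, ← Wz78.adcL_apply, map_add, _root_.add_apply, Pi.sub_apply, PiLp.sub_apply,
      map_sub, _root_.sub_apply, Ref.A, Md.addC]
    simp only [Wz78.adcL_apply, Grp76.adc_opL]
    abel
  φ x := by
    rw [Prod.snd_add, Prod.fst_add, val_add, Pi.add_apply, gB.φ, gv.φ, Prod.snd_sub, Prod.fst_sub,
      val_sub, y.val_φ hk, y'.val_φ hk]
    simp only [Pi.sub_apply, map_sub, map_add, smul_add, smul_sub]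
    abel
  z := by
    rw [Prod.snd_add, Prod.snd_add, gB.z, gv.z, Prod.mk_add_mk, add_zero, ← smul_add]
    exact congrArg (fun z => ((2 * c * Complex.I : ℂ) • z, (0 : T))) (sub_add_cancel _ _)

variable [CompleteSpace T] {K : Type} [NormedAddCommGroup K] [NormedSpace ℝ K]
  [FiniteDimensional ℝ K] {ξ : K →ₗ[ℝ] M → o.m.A} {c : K →ₗ[ℝ] ℝ} (a : ∀ s, Inf y (ξ s) (c s))
  (mb : ∀ s, Mb o (ξ s))
include a mb

theorem exists_img (hk : 3 ≤ k) : ∃ (Θ : K × o.C r k → o.C r k) (V : K →L[ℝ] o.C r k),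
    (∀ w, Θ (0, w) = w) ∧ HasStrictFDerivAt Θ (V.coprod (.id ℝ _)) (0, y.pt k) ∧
    (∀ s, In0 k y (ξ s) (c s) (V s)) ∧
    ∀ s (y' : Pnt o r), Img k y' (ξ s) (c s) (Θ (s, y'.pt k)) := by
  have hd := fun s => (Cb.sm (a s).cb).mdifferentiable (by simp)
  choose B hB using fun s => exists_gen (r := r) h hk (a s).cb (a s).mem (mb s) (c s)
  choose V hV using fun s => exists_in0 h hk (a s)
  obtain ⟨Θ, h0, h1, h2⟩ := exists_flow
    ⟨⟨B, fun s s' => (hB _).unique h hk (by rw [map_add, map_add]; exact (hB s).add (hB s'))⟩,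
      fun t s => (hB _).unique h hk (by rw [map_smul, map_smul]; exact (hB s).smul t)⟩
    ⟨⟨V, fun s s' => (hV _).unique h hk (by
        rw [map_add, map_add]; exact (hV s).add (hV s') (hd s) (hd s'))⟩,
      fun t s => (hV _).unique h hk (by rw [map_smul, map_smul]; exact (hV s).smul (hd s) t)⟩
    (y.pt k)
  refine ⟨Θ, _, h0, h1, hV, fun s y' => ?_⟩
  have := img_of_ode h hk (Cb.sm (a s).cb) (fun x => ((Grp76.Pg_iff h _ _).1 ((a s).mem x)).1)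
    (hB s) ((hV s).move hk (hB s) y') (f := fun t => Θ (t • s, y'.pt k) - y'.pt k)
    (by rw [zero_smul, h0, sub_self]) fun t => der_shift (h2 s _ t) _
  rwa [one_smul, add_sub_cancel] at this

/-- **The action of a finite dimensional space of symmetries.** -/
theorem exists_orb (hk : 3 ≤ k) : ∃ (Θ : K × o.C r k → o.C r k) (V : K →L[ℝ] o.C r k),
    (∀ w, Θ (0, w) = w) ∧ HasStrictFDerivAt Θ (V.coprod (.id ℝ _)) (0, y.pt k) ∧
    (∀ s, In0 k y (ξ s) (c s) (V s)) ∧ ∀ s (y' : Pnt o r), ∃ z : Pnt o r,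
      z.pt k = Θ (s, y'.pt k) ∧ z.t = y'.t ∧ y'.Eq z (uX (ξ s)) (Circle.exp (c s)) := by
  obtain ⟨Θ, V, h0, h1, h2, h3⟩ := exists_img h a mb hk
  have hg := fun s x => ((Grp76.Pg_iff h _ _).1 ((a s).mem x)).1
  refine ⟨Θ, V, h0, h1, h2, fun s y' => ?_⟩
  obtain ⟨z, hz⟩ := exists_pt h hk (v := Θ (s, y'.pt k))
    (by rw [mem_U, (h3 s y').z]; exact y'.ht) fun j hj => by
      obtain ⟨Θ', -, -, -, -, h4⟩ := exists_img h a mb (hk.trans hj)
      exact ⟨_, ((h4 s y').iC h hk hj).unique h hk (hg s) (h3 s y')⟩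
  have h4 := hz ▸ h3 s y'
  have h5 := h4.α
  have h6 := h4.φ
  rw [z.val_α hk] at h5
  rw [z.val_φ hk] at h6
  have h7 : z.t = y'.t := congrArg Prod.snd h4.z
  exact ⟨z, hz, h7, eq_of_th h ⟨fun x _ => mx_uX (hg s x), cb_of_th h (y := y') (y' := z)
    ((sm_uX (Cb.sm (a s).cb)).of_le (by simp)).contMDiffOn (fun x _ => mx_uX (hg s x))
    fun x _ => h5 x⟩ h7 (fun x _ => h5 x) (fun x _ => h6 x) (congrArg Prod.fst h4.z)⟩

end Crest.Agent.X212.Ker54
end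
end

-- ▼ part X212/Ker54/Main

/-! Symmetries bound the index of a regular solution; if they exhaust it, solutions nearby are
unique modulo all equivalences, also for perturbations nearby. -/

set_option autoImplicit false
set_option linter.unusedSectionVars false
noncomputable section
open scoped Manifold ContDiff Topology InnerProductSpace
open MeasureTheory Set Function Filter

namespace Crest.Agent.X212.Ker54
open An An.Pre Sob92 Prm93 Mod61 Eqv71 Nk89 Slc61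
open Grp76 (Nice GA PropAt gmE gaM hy1 hs_iff)
open Wz78 (nab)

/-- orbits of the Sobolev gauge group are tangent to its infinitesimal action -/
theorem ga_range {R B S C L L' H Z : Type} [NormedAddCommGroup R] [NormedSpace ℝ R]
    [NormedAddCommGroup B] [NormedSpace ℝ B] [NormedAddCommGroup S] [NormedSpace ℝ S]
    [NormedAddCommGroup C] [NormedSpace ℝ C] [NormedAddCommGroup L] [NormedSpace ℝ L]
    [NormedAddCommGroup L'] [NormedSpace ℝ L'] [NormedAddCommGroup H] [NormedSpace ℝ H]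
    [NormedAddCommGroup Z] [NormedSpace ℝ Z] [CompleteSpace R] [CompleteSpace L]
    (D : GA R B S C L) {x : C} {K : R →L[ℝ] Z} (h : D.Est x x K) (hi : Injective (D.d x))
    (hs : ∀ g : D.Gr, g • x = x → ∀ y : C, g • y = y) (Q : SliceData D.Gr L' H x) (ξ : L') :
    Q.d ξ ∈ range (D.d x) := by
  have hp := h.propAt
  obtain ⟨hK, -, c, hc⟩ := h
  let N : C →L[ℝ] B × S := (-D.pa).prod D.ps
  have hN : ∀ η, D.T x x (D.j η) = N (D.d x η) := fun η =>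
    Prod.ext (by simp [N, D.pa_d, D.T_apply]) (by simp [N, D.ps_d, D.T_apply])
  have he : Fred93.Est (D.d x) (K ∘L D.j) (‖D.q‖ * (|c| * (‖N‖ + 1))) := fun η => by
    have h1 := D.q.le_opNorm (D.j η)
    have h2 := (hc (D.j η)).trans (mul_le_mul_of_nonneg_right (le_abs_self c) (by positivity))
    have h3 := N.le_opNorm (D.d x η)
    rw [D.q_j] at h1
    rw [hN] at h2
    rw [mul_assoc, mul_assoc, ContinuousLinearMap.comp_apply]
    refine h1.trans (mul_le_mul_of_nonneg_left (h2.trans (mul_le_mul_of_nonneg_left ?_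
      (abs_nonneg c))) (norm_nonneg _))
    nlinarith [norm_nonneg (D.d x η), mul_nonneg (norm_nonneg N) (norm_nonneg (K (D.j η)))]
  obtain ⟨c', c0, hc'⟩ := he.bound_of_inj (hK.comp_clm D.j) hi
  have h1 := HasFDerivAt.comp (f := fun η : L => (η, x)) 0 (D.hasStrict_act x).hasFDerivAt
    (hasFDerivAt_prodMk_left (𝕜 := ℝ) (0 : L) x)
  exact range_le Q (h1.congr_fderiv (by ext; simp)) D.e_zero (D.tame hp hs) c0 hc' ξ

/-- `orb_abs` for a family of perturbations -/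
theorem orb_q {C Y L W : Type} [NormedAddCommGroup C] [NormedSpace ℝ C] [NormedAddCommGroup Y]
    [NormedSpace ℝ Y] [NormedAddCommGroup L] [NormedSpace ℝ L] [CompleteSpace C] [CompleteSpace Y]
    [CompleteSpace L] {x₀ : C} {S : L × C → C} {Λ : L →L[ℝ] C}
    (hS : HasStrictFDerivAt S (Λ.coprod (.id ℝ C)) (0, x₀)) (h0 : S (0, x₀) = x₀)
    {F : (W →₀ ℝ) → C → Y} {F0 : C → Y} {τ : W → C → Y}
    (hF : ∀ q v, F q v = F0 v + q.sum fun w c => c • τ w v) {q : W →₀ ℝ}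
    (h1 : ContDiffAt ℝ ∞ (F q) x₀) (h2 : ∀ w, ContDiffAt ℝ ∞ (τ w) x₀)
    (hs : Surjective (fderiv ℝ (F q) x₀)) (hz : ∀ a, fderiv ℝ (F q) x₀ (Λ a) = 0) (π : C →L[ℝ] L)
    (hπ : ∀ a, π (Λ a) = a) (hk : ∀ v, fderiv ℝ (F q) x₀ v = 0 → v ∈ range Λ) {α : Type}
    {l : Filter α} {qs : α → W →₀ ℝ} (hq : St.Cv l qs q) :
    ∃ N ∈ 𝓝 x₀, ∃ a : C → L, ∀ᶠ i in l, ∀ w ∈ N, ∀ w' ∈ N,
      F (qs i) (S (a w, w)) = F (qs i) (S (a w', w')) → S (a w, w) = S (a w', w') := by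
  obtain ⟨J, hJ, hq⟩ := hq
  let Ψ : C × (J → ℝ) → Y := fun z => F q z.1 + ∑ w : J, z.2 w • τ w z.1
  have hΨ : ContDiffAt ℝ ∞ Ψ (x₀, 0) := (h1.comp _ contDiffAt_fst).add (ContDiffAt.sum fun w _ =>
    ((contDiff_apply ℝ ℝ w).comp contDiff_snd).contDiffAt.smul ((h2 w).comp _ contDiffAt_fst))
  have hd : ∀ v, fderiv ℝ Ψ (x₀, 0) (v, 0) = fderiv ℝ (F q) x₀ v := fun v => by
    have h3 := HasFDerivAt.comp (f := fun v : C => (v, (0 : J → ℝ))) x₀
      (hΨ.differentiableAt (by simp)).hasFDerivAt (hasFDerivAt_prodMk_left (𝕜 := ℝ) x₀ 0)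
    rw [show Ψ ∘ (fun v : C => (v, (0 : J → ℝ))) = F q from funext fun v => by simp [Ψ]] at h3
    rw [h3.fderiv]; rfl
  have q1 : ∀ i v, Ψ (v, fun w => qs i w - q w) = F (qs i) v := fun i v => by
    have : q + Fin93.ext0 J (fun w => qs i w - q w) = qs i := by
      ext w
      by_cases hw : w ∈ J
      · rw [Finsupp.add_apply, Fin93.ext0_mem _ ⟨w, hw⟩, add_sub_cancel]
      · rw [Finsupp.add_apply, Fin93.ext0_not_mem _ hw, add_zero, hJ i w hw]
    rw [← this, hF, Finsupp.sum_add_index' (h := fun w c => c • τ w v) (fun _ => zero_smul _ _)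
      (fun _ _ _ => add_smul _ _ _), ← add_assoc, ← hF, Fin93.ext0_sum, this]
  have q2 : Tendsto (fun i (w : J) => qs i w - q w) l (𝓝 0) :=
    tendsto_pi_nhds.2 fun w => tendsto_sub_nhds_zero_iff.2 (hq w)
  obtain ⟨N, hN, N', hN', b, hb⟩ := orb_abs hS h0 (hΨ.hasStrictFDerivAt (by simp))
    (fun f => (hs f).imp fun v e => (hd v).trans e) (fun p => (hd _).trans (hz p)) π hπ
    fun v e => hk v ((hd v).symm.trans e)
  exact ⟨N, hN, b, (q2.eventually hN').mono fun i hi w a w' a' e =>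
    hb w a w' a' _ hi (by rw [q1, q1, e])⟩

variable {E : Type} [NormedAddCommGroup E] [NormedSpace ℝ E] [FiniteDimensional ℝ E]
  [MeasurableSpace E] [BorelSpace E]
  {HM : Type} [TopologicalSpace HM] {I : ModelWithCorners ℝ E HM} [I.Boundaryless]
  {M : Type} [TopologicalSpace M] [ChartedSpace HM M] [IsManifold I ∞ M]
  [MeasurableSpace M] [T2Space M] [BorelSpace M] [SecondCountableTopology M]
  {ι : Type} [Fintype ι] {lam : Type} [Fintype lam]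
  {T : Type} [NormedAddCommGroup T] [NormedSpace ℝ T]
  {𝔉 : Fam I M ι lam T} (h : 𝔉.OK) {o o' o'' : Ref 𝔉} {r n m k : ℕ} {W : Type}

/-- the orbit of `y` is tangent to the action of the Sobolev sections of `g` -/
def Tan {Al : (M → CL o.m.V o.m.V) → Circle → Prop} (Γ : GrpM o r k Al) (y : Pnt o r) : Prop :=
  Γ.Free (y.pt k) → ∀ (D : SliceData Γ.G Γ.L Γ.H (y.pt k)) (ξ : Γ.L),
    ∃ η : 𝔉.F0.H (k + 2) o.Pg, In0 k y (𝔉.F0.val _ _ η) 0 (D.d ξ)

/-- equivalent in some gauge and phase -/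
def EqT (y : Pnt o r) (y' : Pnt o' r) : Prop := y'.t = y.t ∧ ∃ w ζ, y.Eq y' w ζ

theorem zr_of {Al : (M → CL o.m.V o'.m.V) → Circle → Prop} {τ : T → PtX M ι lam r n m}
    (hn : NatP o o' Al τ) {y : Pnt o r} {y' : Pnt o' r} {w : M → CL o.m.V o'.m.V} {c : Circle}
    (ht : y'.t = y.t) (al : Al w c) (e : y.Eq y' w c) (z : (τ y.t).Zr y.cfg 𝔉.Om 𝔉.Om') :
    (τ y'.t).Zr y'.cfg 𝔉.Om 𝔉.Om' := by
  obtain ⟨h1, h2, h3, h4⟩ := hn y y' w c ht al e
  refine ⟨fun x hx => ?_, fun x hx => PiLp.ext fun s => ?_, funext fun i => ?_, h4.trans z.R⟩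
  · rw [h1 x hx, z.D x hx]; exact (congrArg _ (map_zero (w x))).trans (cs_zero _ _)
  · rw [h2 x hx, z.C x hx]; exact map_zero (cj (w x))
  · rw [h3, z.S]; exact mul_zero _

include h

theorem EqT.symm {y : Pnt o r} {y' : Pnt o' r} (a : EqT y y') : EqT y' y :=
  let ⟨ht, _, _, e⟩ := a; ⟨ht.symm, _, _, e.symm h ht⟩

theorem EqT.trans {y : Pnt o r} {y' : Pnt o' r} {y'' : Pnt o'' r} (a : EqT y y') (b : EqT y' y'') :
    EqT y y'' :=
  let ⟨ht, _, _, e⟩ := a; let ⟨ht', _, _, e'⟩ := b; ⟨ht'.trans ht, _, _, e.trans h ht e' ht'⟩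

theorem in0_d [o.B0] (hk : 7 ≤ k) (y : Pnt o r) (η : 𝔉.F0.H (k + 2) o.Pg) :
    In0 k y (𝔉.F0.val _ _ η) 0 ((gaM o h hk r).d (y.pt k) η) := by
  have H := hy1 o h hk
  refine ⟨fun x a => (H.val_d1 (y.pt k) η x a).trans ?_, fun x => (H.val_d2 (y.pt k) η x).trans ?_,
    (H.d_z (y.pt k) η).trans (by simp; rfl)⟩
  · unfold Grp76.QB.conn
    rw [n0, o.A_eq, y.val_α (by omega)]
  · rw [Grp76.QB.spin, y.val_φ (by omega), zero_smul, add_zero]

theorem tan_gmE [o.B0] [CompleteSpace T] (hk : 7 ≤ k) (hy : Hdy 𝔉.F0) (y : Pnt o r) :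
    Tan (gmE o h hk r hy) y := fun hf D ξ => by
  obtain ⟨_, he⟩ := (hy1 o h hk).est (Z := Grp76.Zr T r) hy (v := y.pt k) (w := y.pt k)
    (Grp76.nice_pt h hk y).1.sm (Grp76.nice_pt h hk y).1.sm
  obtain ⟨η, e⟩ := ga_range (gaM o h hk r) he (Grp76.d_inj _ h hf) hf D ξ
  exact ⟨η, e ▸ in0_d h hk y η⟩

theorem nice_n0 {y : Pnt o r} {ξ : M → o.m.A} {c : ℝ} (a : Inf y ξ c) (i : ι) :
    Nice 𝔉.F0.toPre (n0 y ξ i) := by
  rw [show n0 y ξ i = _ from funext fun x =>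
    n0_eq h (y := y) ((Grp76.Pg_iff h x _).1 (a.mem x)).1 i]
  exact Nice.sum _ fun b => (a.A b).bil (ContinuousLinearMap.lsmul ℝ ℝ) ((h.sSi i b).cb _ y.ht)

theorem md_val (hk : 4 ≤ k) (η : 𝔉.F0.H (k + 1) o.Pg) :
    MDifferentiable I 𝓘(ℝ, o.m.A) (𝔉.F0.val _ _ η) := (val_DH h.sup hk η).1

/-- regularity of gauge parameters -/
theorem hs_of_n0 (hk : 4 ≤ k) (y : Pnt o r) (η : 𝔉.F0.H (k + 1) o.Pg)
    (hn : ∀ a, Nice 𝔉.F0.toPre (n0 y (𝔉.F0.val _ _ η) a)) :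
    𝔉.F0.val _ _ η ∈ Hs 𝔉.F0.toPre o.Pg := by
  have cA : ∀ a, 𝔉.F0.Cb fun x => -adc (o.A y.t a x + opL (y.α x a)) := fun a =>
    Cb_neg (Cb_clm Wz78.adcL (Cb_add (o.cAt _ a) (Cb_clm (opL ∘L Grp76.pj o.m.A a) (y.cα h))))
  have e : ∀ a x, 𝔉.F0.D a (𝔉.F0.val _ _ η) x = (-adc (o.A y.t a x + opL (y.α x a)))
      (𝔉.F0.val _ _ η x) + n0 y (𝔉.F0.val _ _ η) a x := fun a x => by
    rw [n0, nab, _root_.neg_apply, D_def]; abel
  have hs := Grp76.sm_of_lin (md_val h hk η) (fun a => Cb.sm (cA a)) (fun a => (hn a).sm) e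
  exact (hs_iff h).2 ⟨Grp76.nice_of_fl h.tame.choose_spec hs (Grp76.fl_of_lin hs
    (Is.val h.sup (by omega) η).memLp cA hn e), val_proj h.sup (by omega) η⟩

/-- a symmetry which is tangent to the orbit is trivial -/
theorem Sy.eq_zero (hk : 3 ≤ k) {y : Pnt o r} {K : Type} [AddCommGroup K] [Module ℝ K]
    {ξ : K →ₗ[ℝ] M → o.m.A} {c : K →ₗ[ℝ] ℝ} (sy : Sy y ξ c) {s : K} {v : o.C r k}
    (a : In0 k y (ξ s) (c s) v) {η : 𝔉.F0.H (k + 2) o.Pg} (b : In0 k y (𝔉.F0.val _ _ η) 0 v) :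
    s = 0 := by
  have e : ∀ i x, n0 y (𝔉.F0.val _ _ η) i x = n0 y (ξ s) i x := fun i x =>
    neg_inj.1 ((b.α x i).symm.trans (a.α x i))
  have hη := hs_of_n0 h (by omega) y η fun i => funext (e i) ▸ nice_n0 h (sy.inf s) i
  have d1 := (Cb.sm (sy.inf s).cb).mdifferentiable (by simp)
  have d2 := md_val h (k := k + 1) (by omega) η
  refine sy.ind s _ hη (fun i x => ?_) (fun x => ?_) ?_
  · generalize 𝔉.F0.val _ _ η = η' at e d2 hη ⊢
    have m : (ξ s - η') x ∈ o.m.gS x := sub_mem ((Grp76.Pg_iff h x _).1 ((sy.inf s).mem x)).1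
      ((Grp76.Pg_iff h x _).1 (Hs_proj h.sup hη x)).1
    rw [nab_W h m]
    refine Finset.sum_eq_zero fun j _ => smul_eq_zero_of_right _ ?_
    have := n0_add (y := y) (ξ := ξ s - η') ((d1 x).sub (d2 x)) (d2 x) j
    rw [sub_add_cancel, e] at this
    exact add_eq_right.1 this.symm
  · have := (a.φ x).symm.trans (b.φ x)
    rw [zero_smul, add_zero] at this
    rw [map_sub, _root_.sub_apply, ← this]; abel
  · have := congrArg Prod.fst (a.z.symm.trans b.z)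
    simp only [Complex.ofReal_zero, mul_zero, zero_mul, zero_smul, smul_eq_zero, mul_eq_zero,
      Complex.I_ne_zero, two_ne_zero, or_false, false_or] at this
    exact smul_eq_zero.2 this

omit h

variable [CompleteSpace T] {Θ : Th 𝔉 r n m W} {Adm : (W →₀ ℝ) → Prop} (H : Θ.OK Adm)

/-- zeros near `x₀` for perturbations near `q` are unique modulo all equivalences -/
def Orb (q : W →₀ ℝ) (x₀ : Θ.X) : Prop := ∀ (α : Type) (l : Filter α) (qs : α → W →₀ ℝ)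
  (u u' : α → Θ.X), St.Cv l qs q → Tendsto u l (H.Q.Near x₀) → Tendsto u' l (H.Q.Near x₀) →
  ∀ᶠ i in l, Θ.Zr (qs i) (u i) → Θ.Zr (qs i) (u' i) → EqT (u i).2 (u' i).2

theorem Orb.isol {q : W →₀ ℝ} {x₀ : Θ.X} (a : Orb H q x₀) (z : Θ.Zr q x₀) :
    ∀ᶠ x in H.Q.Near x₀, Θ.Zr q x → EqT x₀.2 x.2 :=
  (a _ _ (fun _ => q) (fun _ => x₀) id ⟨∅, fun _ _ _ => rfl, fun _ => tendsto_const_nhds⟩
    (H.Q.tendsto_near_of (fun _ => x₀.2) tendsto_const_nhds
      (Eventually.of_forall fun _ => H.Q.eqv.refl _)) tendsto_id).mono fun _ e => e z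

include H in
theorem zr_eqv {q : W →₀ ℝ} {x x' : Θ.X} (e : Θ.Eqv x x') (z : Θ.Zr q x) : Θ.Zr q x' :=
  let ⟨ht, _, _, al, e⟩ := e; zr_of (H.nat_tot _ _ q) ht al e z

/-- **KER + ORB** for any theory whose orbits are tangent to the Sobolev sections of `g` -/
theorem ker_th (ne : 𝔉.Nat Θ.e) (nτ : ∀ w, 𝔉.Nat (Θ.τ w)) {q : W →₀ ℝ} {a : Θ.O}
    {y : Pnt (Θ.ref a) r} (ha : Adm q) (hx : H.Q.Sol q ⟨a, y⟩) (hr : H.Q.Reg q ⟨a, y⟩)
    (tan : Tan (Θ.Γ a) y) {K : Type} [NormedAddCommGroup K] [NormedSpace ℝ K]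
    [FiniteDimensional ℝ K] {ξ : K →ₗ[ℝ] M → (Θ.ref a).m.A} {c : K →ₗ[ℝ] ℝ} (sy : Sy y ξ c)
    (mb : ∀ s, Mb _ (ξ s)) :
    (∀ s v, In0 Θ.k y (ξ s) (c s) v → fderiv ℝ (Θ.F a q) (y.pt Θ.k) v = 0) ∧
    (Module.finrank ℝ K : ℤ) ≤ Θ.d ∧ ((Module.finrank ℝ K : ℤ) = Θ.d → Orb H q ⟨a, y⟩ ∧
      ∀ v, fderiv ℝ (Θ.F a q) (y.pt Θ.k) v = 0 → ∃ s, ∃ η : 𝔉.F0.H (Θ.k + 2) (Θ.ref a).Pg,
        In0 Θ.k y (ξ s + 𝔉.F0.val _ _ η) (c s) v ∧ (Nice 𝔉.F0.toPre (𝔉.F0.val _ _ v.1) →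
          𝔉.F0.val _ _ η ∈ Hs 𝔉.F0.toPre (Θ.ref a).Pg)) := by
  have h := H.fam
  obtain ⟨i0, z0⟩ := (H.sol_iff q _).1 hx
  obtain ⟨D, -, -, -, -, hF, -⟩ := H.slc_of ha hx
  replace tan := tan (((Θ.Γ a).free_iff h H.k3).2 i0.1) D
  obtain ⟨S, V, h0, h1, h2, h3⟩ := exists_orb h sy.inf mb H.k3
  have hS := joint_der D h1 (h0 _)
  have e0 : D.e (0 : (Θ.Γ a).L × K).1 • S ((0 : (Θ.Γ a).L × K).2, y.pt Θ.k) = y.pt Θ.k := by
    rw [Prod.fst_zero, Prod.snd_zero, h0, D.e_zero, one_smul]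
  have hz : ∀ q' (y' : Pnt (Θ.ref a) r) (g : (Θ.Γ a).G) s, Θ.Zr q' ⟨a, y'⟩ →
      Θ.F a q' (g • S (s, y'.pt Θ.k)) = 0 := fun q' y' g s z => by
    obtain ⟨y₁, e1, e2, e3⟩ := h3 s y'
    rw [← e1]
    exact H.ax.F_smul (o := a) q' g y₁.mem_U ((H.zr_iff q' ⟨a, y₁⟩).2 (zr_of (Al := fun _ _ => True)
      (Θ.tot_mem (natS _ _ n m _) (ne.natP h _ _ _) (fun w => (nτ w).natP h _ _ _) q') e2 trivial
      e3 z))
  have hU := (isOpen_U h).mem_nhds (y.mem_U (k := Θ.k))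
  have hc := (H.repF a q).1.contDiffAt hU
  have h4 : ∀ p, fderiv ℝ (Θ.F a q) (y.pt Θ.k) (D.d.coprod V p) = 0 :=
    comp_zero hS e0 (hc.differentiableAt (by simp)).hasFDerivAt fun p => hz q y _ _ z0
  obtain ⟨h5, h6⟩ := lin_le D.bij hr hF h4 fun s ξ' e => by
    obtain ⟨η, b⟩ := tan ξ'
    exact Sy.eq_zero h H.k3 sy (h2 s) (e ▸ b)
  refine ⟨fun s v b => ?_, h5, fun e => ?_⟩
  · rw [b.unique h H.k3 (h2 s), ← h4 (0, s), ContinuousLinearMap.coprod_apply, map_zero, zero_add]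
  obtain ⟨⟨π, hπ⟩, h7⟩ := h6 e
  refine ⟨fun α l qs u u' hq hu hu' => ?_, fun v hv => ?_⟩
  · obtain ⟨N, hN, b, hb⟩ := orb_q hS e0 (F := Θ.F a) (fun _ _ => rfl) hc
      (fun w => (H.repτ a w).1.contDiffAt hU) hr h4 π hπ h7 hq
    filter_upwards [hb, H.Q.tendsto_near.1 hu N hN, H.Q.tendsto_near.1 hu' N hN]
      with i a1 ⟨y₁, a2, a3⟩ ⟨y₂, a4, a5⟩ z1 z2
    have a6 := a1 _ a2 _ a4
      ((hz _ y₁ _ _ (zr_eqv H a3 z1)).trans (hz _ y₂ _ _ (zr_eqv H a5 z2)).symm)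
    obtain ⟨w₁, b1, b2, b3⟩ := h3 (b (y₁.pt Θ.k)).2 y₁
    obtain ⟨w₂, b4, b5, b6⟩ := h3 (b (y₂.pt Θ.k)).2 y₂
    have a7 : ((D.e (b (y₂.pt Θ.k)).1)⁻¹ * D.e (b (y₁.pt Θ.k)).1) • w₁.pt Θ.k = w₂.pt Θ.k := by
      rw [mul_smul, inv_smul_eq_iff, b1, b4]; exact a6
    obtain ⟨t1, _, _, -, c1⟩ := a3
    obtain ⟨t2, _, _, -, c2⟩ := a5
    exact (((EqT.trans h ⟨t1, _, _, c1⟩ ⟨b2, _, _, b3⟩).trans h ⟨(Θ.Γ a).t_eq a7, _, _,
      (Θ.Γ a).eq_of_smul h H.k3 a7⟩).trans h (EqT.symm h ⟨b5, _, _, b6⟩)).trans h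
      (EqT.symm h ⟨t2, _, _, c2⟩)
  · obtain ⟨⟨ξ', s⟩, ev⟩ := h7 v hv
    obtain ⟨η, b⟩ := tan ξ'
    have d1 := (Cb.sm (sy.inf s).cb).mdifferentiable (by simp)
    have d2 := md_val h (k := Θ.k + 1) (by have := H.hk; omega) η
    have b1 := (h2 s).add b d1 d2
    rw [add_zero, add_comm (V s), show D.d ξ' + V s = v from ev] at b1
    refine ⟨s, η, b1, fun hv => hs_of_n0 h (by have := H.hk; omega) y η fun i => ?_⟩
    have e1 : n0 y (𝔉.F0.val _ _ η) i = fun x => (-Grp76.pj _ i) (𝔉.F0.val _ _ v.1 x) -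
        n0 y (ξ s) i x := funext fun x => by
      rw [_root_.neg_apply, Grp76.pj_apply, b1.α, n0_add (d1 x) (d2 x), neg_neg,
        add_sub_cancel_left]
    rw [e1]
    exact (hv.clm (-Grp76.pj _ i)).sub (nice_n0 h (sy.inf s) i)

variable (o) in
/-- `Nk89.KerStmt` with the corrected kernel clause and with `Orb` -/
def KerStmt' : Prop := ∀ [o.B0] (h : 𝔉.OK) (hy : Hdy 𝔉.F0) (r n m k : ℕ) (hk : 7 ≤ k)
  (W : Type) (e : T → PtX M ι lam r n m) (τ : W → T → PtX M ι lam r n m) (P : Pnt o r → Prop)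
  (d : ℤ) (Adm : (W →₀ ℝ) → Prop) (H : (thE (gmE o h hk r hy) e τ P d).OK Adm),
  𝔉.Nat e → (∀ w, 𝔉.Nat (τ w)) → ∀ (q : W →₀ ℝ) (y : Pnt o r), Adm q → H.Q.Sol q ⟨(), y⟩ →
  H.Q.Reg q ⟨(), y⟩ → ∀ (K : Type) [NormedAddCommGroup K] [NormedSpace ℝ K]
  [FiniteDimensional ℝ K] (ξ : K →ₗ[ℝ] M → o.m.A) (c : K →ₗ[ℝ] ℝ), Sy y ξ c →
  (Module.finrank ℝ K : ℤ) ≤ d ∧ ((Module.finrank ℝ K : ℤ) = d →
    (∀ᶠ x in H.Q.Near ⟨(), y⟩, H.Q.Sol q x → x.2.t = y.t ∧ ∃ w ζ, y.Eq x.2 w ζ) ∧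
    Orb H q ⟨(), y⟩ ∧
    ∀ v : o.C r k, fderiv ℝ ((thE (gmE o h hk r hy) e τ P d).F () q) (y.pt k) v = 0 →
      ∃ s, ∃ η : 𝔉.F0.H (k + 2) o.Pg, IsInf k y (ξ s + 𝔉.F0.val _ _ η) (c s) v ∧
        (Nice 𝔉.F0.toPre (𝔉.F0.val _ _ v.1) → 𝔉.F0.val _ _ η ∈ Hs 𝔉.F0.toPre o.Pg))

theorem ker' : KerStmt' o := by
  intro _ h hy r n m k hk W e τ P d Adm H ne nτ q y ha hx hr K _ _ _ ξ c sy
  obtain ⟨-, h1, h2⟩ := ker_th H ne nτ ha hx hr (tan_gmE h hk hy y) sy fun s => mb_B0 _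
  refine ⟨h1, fun e => ?_⟩
  obtain ⟨h3, h4⟩ := h2 e
  refine ⟨(h3.isol H ((H.sol_iff q _).1 hx).2).mono fun x a z => a ((H.sol_iff q x).1 z).2, h3,
    fun v hv => ?_⟩
  obtain ⟨s, η, h5, h6⟩ := h4 v hv
  exact ⟨s, η, h5.isInf h fun x => add_mem ((Grp76.Pg_iff h x _).1 ((sy.inf s).mem x)).1
    ((Grp76.Pg_iff h x _).1 (val_proj h.sup (k := k + 2) (by omega) η x)).1, h6⟩

end Crest.Agent.X212.Ker54
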